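import Mathlib

/-!
The pointwise inequality behind the integral identity for the Lane-Emden system.
-/

open Filter Topology

noncomputable section

namespace Vale.Agent.P100

/-- Parameters of a certificate: two weight exponents and six multiplier coefficients. -/
structure Par where
  a : ℝ
  b : ℝ
  c : ℝ
  d : ℝ
  k1 : ℝ
  k2 : ℝ
  k3 : ℝ
  k4 : ℝ

namespace Par

variable (π : Par) (N p q e : ℝ)

def m1 : ℝ := π.a + 2 * π.c
def m2 : ℝ := π.b - 2 + 2 * π.d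
def cA : ℝ := (π.a - 1) * π.c - π.m1 ^ 2 / (8 * (1 - e)) - e
def cC : ℝ := -(π.m1 ^ 2 * (1 / 2 - 1 / N)) / (4 * (1 - e))
def cB : ℝ := π.b * π.c + π.a * π.d - π.m1 / N - π.m1 * π.m2 * (1 - 1 / N) / (2 * (1 - e))
def cE : ℝ := (1 - e) / N - π.m2 / N + (π.b - 1) * π.d
  - π.m2 ^ 2 * (1 - 1 / N) / (4 * (1 - e)) - e
def cPa : ℝ := π.k1 * (π.a - 2) - e
def cPc : ℝ := π.k1 * (π.b + p) + π.k3 * (π.a - 1)
def cPb : ℝ := π.k3 * (π.b - 1 + p) - π.c - e
def cQa : ℝ := π.k2 * (π.a - 1 + q) - e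
def cQc : ℝ := π.k2 * (π.b - 1) + π.k4 * (π.a + q) - π.m1 / N - q
def cQb : ℝ := π.k4 * (π.b - 2) + 1 + 2 * (1 - e) / N - π.m2 / N - π.d - e
def cPP : ℝ := -π.k1 - e
def cPQ : ℝ := -π.k2 - π.k3
def cQQ : ℝ := (1 - e) / N - π.k4 - e

/-- The open algebraic conditions on a certificate. -/
def Cond : Prop :=
  0 < π.cA e + π.cC N e ∧
  π.cB N e ^ 2 < 4 * (π.cA e + π.cC N e) * π.cE N e ∧
  0 < π.cPa e ∧ π.cPc p ^ 2 < 4 * π.cPa e * π.cPb p e ∧
  0 < π.cQa q e ∧ π.cQc N q ^ 2 < 4 * π.cQa q e * π.cQb N e ∧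
  0 < π.cPP e ∧ 0 < π.cQQ N e ∧ (0 ≤ π.cPQ ∨ π.cPQ ^ 2 < 4 * π.cPP e * π.cQQ N e)

lemma cond_eventually (h : π.Cond N p q 0) : ∀ᶠ e in 𝓝 (0 : ℝ), π.Cond N p q e := by
  obtain ⟨h1, h2, h3, h4, h5, h6, h7, h8, h9⟩ := h
  have hA : ContinuousAt (fun e => π.cA e) 0 := by
    simp only [cA]; fun_prop (disch := norm_num)
  have hC : ContinuousAt (fun e => π.cC N e) 0 := by
    simp only [cC]; fun_prop (disch := norm_num)
  have hB : ContinuousAt (fun e => π.cB N e) 0 := by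
    simp only [cB]; fun_prop (disch := norm_num)
  have hE : ContinuousAt (fun e => π.cE N e) 0 := by
    simp only [cE]; fun_prop (disch := norm_num)
  have hPa : ContinuousAt (fun e => π.cPa e) 0 := by simp only [cPa]; fun_prop
  have hPb : ContinuousAt (fun e => π.cPb p e) 0 := by simp only [cPb]; fun_prop
  have hQa : ContinuousAt (fun e => π.cQa q e) 0 := by simp only [cQa]; fun_prop
  have hQb : ContinuousAt (fun e => π.cQb N e) 0 := by simp only [cQb]; fun_prop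
  have hPP : ContinuousAt (fun e => π.cPP e) 0 := by simp only [cPP]; fun_prop
  have hQQ : ContinuousAt (fun e => π.cQQ N e) 0 := by simp only [cQQ]; fun_prop
  have e1 := (hA.add hC).eventually_lt continuousAt_const (g := fun _ => (0:ℝ))
  have g1 := ContinuousAt.eventually_lt continuousAt_const (hA.add hC) h1
  have g2 := ContinuousAt.eventually_lt (hB.pow 2)
    ((continuousAt_const.mul (hA.add hC)).mul hE) h2
  have g3 := ContinuousAt.eventually_lt continuousAt_const hPa h3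
  have g4 := ContinuousAt.eventually_lt continuousAt_const
    ((continuousAt_const.mul hPa).mul hPb) h4
  have g5 := ContinuousAt.eventually_lt continuousAt_const hQa h5
  have g6 := ContinuousAt.eventually_lt continuousAt_const
    ((continuousAt_const.mul hQa).mul hQb) h6
  have g7 := ContinuousAt.eventually_lt continuousAt_const hPP h7
  have g8 := ContinuousAt.eventually_lt continuousAt_const hQQ h8
  have g9 : ∀ᶠ e in 𝓝 (0 : ℝ), 0 ≤ π.cPQ ∨ π.cPQ ^ 2 < 4 * π.cPP e * π.cQQ N e := by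
    rcases h9 with h | h
    · exact Eventually.of_forall fun _ => Or.inl h
    · exact (ContinuousAt.eventually_lt continuousAt_const
        ((continuousAt_const.mul hPP).mul hQQ) h).mono fun _ => Or.inr
  filter_upwards [g1, g2, g3, g4, g5, g6, g7, g8, g9] with e a1 a2 a3 a4 a5 a6 a7 a8 a9
  exact ⟨a1, a2, a3, a4, a5, a6, a7, a8, a9⟩

lemma exists_small (h : π.Cond N p q 0) : ∃ e : ℝ, 0 < e ∧ e < 1 ∧ π.Cond N p q e := by
  have h1 := (π.cond_eventually N p q h).filter_mono (nhdsWithin_le_nhds (s := Set.Ioi 0))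
  have h2 : Set.Ioo (0 : ℝ) 1 ∈ 𝓝[>] (0 : ℝ) := Ioo_mem_nhdsGT one_pos
  obtain ⟨e, he, hc⟩ := ((Filter.eventually_of_mem h2 fun _ hx => hx).and h1).exists
  exact ⟨e, he.1, he.2, hc⟩

end Par

section

variable {n : ℕ}

def dot (X Y : Fin n → ℝ) : ℝ := ∑ i, X i * Y i
def quad (G : Fin n → Fin n → ℝ) (X Y : Fin n → ℝ) : ℝ := ∑ i, ∑ j, X i * G i j * Y j
def sq (G : Fin n → Fin n → ℝ) : ℝ := ∑ i, ∑ j, G i j ^ 2

lemma dot_self_nonneg (X : Fin n → ℝ) : 0 ≤ dot X X :=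
  Finset.sum_nonneg fun i _ => mul_self_nonneg (X i)

lemma sq_nonneg' (G : Fin n → Fin n → ℝ) : 0 ≤ sq G :=
  Finset.sum_nonneg fun _ _ => Finset.sum_nonneg fun _ _ => sq_nonneg _

lemma dot_sq_le (X Y : Fin n → ℝ) : dot X Y ^ 2 ≤ dot X X * dot Y Y := by
  have := Finset.sum_mul_sq_le_sq_mul_sq Finset.univ X Y
  simpa only [dot, pow_two] using this

lemma trace_lower (hn : 0 < n) (G : Fin n → Fin n → ℝ) (hG : ∀ i j, G i j = G j i)
    (X Y : Fin n → ℝ) (u v c0 : ℝ) (hc : 0 < c0) :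
    (c0 * (∑ i, G i i) ^ 2 + (u * dot X Y + v * dot Y Y) * (∑ i, G i i)) / n
      - (u ^ 2 * (dot X X * dot Y Y + dot X Y ^ 2) / 2 + 2 * u * v * dot X Y * dot Y Y
          + v ^ 2 * dot Y Y ^ 2 - (u * dot X Y + v * dot Y Y) ^ 2 / n) / (4 * c0)
      ≤ c0 * sq G + u * quad G X Y + v * quad G Y Y := by
  set M : Fin n → Fin n → ℝ := fun i j => u / 2 * (X i * Y j + Y i * X j) + v * (Y i * Y j)
    with hM
  have hT : ∑ i, M i i = u * dot X Y + v * dot Y Y := by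
    simp only [hM, dot, Finset.mul_sum, ← Finset.sum_add_distrib]
    exact Finset.sum_congr rfl fun i _ => by ring
  have hNG : ∑ i, ∑ j, M i j * G i j = u * quad G X Y + v * quad G Y Y := by
    have hs : ∑ i, ∑ j, Y i * G i j * X j = quad G X Y := by
      rw [Finset.sum_comm, quad]
      exact Finset.sum_congr rfl fun i _ => Finset.sum_congr rfl fun j _ => by
        rw [hG j i]; ring
    calc ∑ i, ∑ j, M i j * G i j
        = ∑ i, ∑ j, (u / 2 * (X i * G i j * Y j) + u / 2 * (Y i * G i j * X j)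
            + v * (Y i * G i j * Y j)) :=
          Finset.sum_congr rfl fun i _ => Finset.sum_congr rfl fun j _ => by
            simp only [hM]; ring
      _ = u / 2 * quad G X Y + u / 2 * (∑ i, ∑ j, Y i * G i j * X j) + v * quad G Y Y := by
            simp only [Finset.sum_add_distrib, ← Finset.mul_sum, quad]
      _ = _ := by rw [hs]; ring
  have hNN : ∑ i, ∑ j, M i j ^ 2 = u ^ 2 * (dot X X * dot Y Y + dot X Y ^ 2) / 2
      + 2 * u * v * dot X Y * dot Y Y + v ^ 2 * dot Y Y ^ 2 := by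
    have e : ∀ f g : Fin n → ℝ, ∑ i, ∑ j, f i * g j = (∑ i, f i) * (∑ j, g j) :=
      fun f g => (Finset.sum_mul_sum _ _ _ _).symm
    calc ∑ i, ∑ j, M i j ^ 2
        = ∑ i, ∑ j, (u ^ 2 / 4 * ((X i * X i) * (Y j * Y j))
            + u ^ 2 / 4 * ((Y i * Y i) * (X j * X j))
            + u ^ 2 / 2 * ((X i * Y i) * (X j * Y j))
            + u * v * ((X i * Y i) * (Y j * Y j))
            + u * v * ((Y i * Y i) * (X j * Y j))
            + v ^ 2 * ((Y i * Y i) * (Y j * Y j))) :=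
          Finset.sum_congr rfl fun i _ => Finset.sum_congr rfl fun j _ => by
            simp only [hM]; ring
      _ = u ^ 2 / 4 * (dot X X * dot Y Y) + u ^ 2 / 4 * (dot Y Y * dot X X)
            + u ^ 2 / 2 * (dot X Y * dot X Y) + u * v * (dot X Y * dot Y Y)
            + u * v * (dot Y Y * dot X Y) + v ^ 2 * (dot Y Y * dot Y Y) := by
            simp only [Finset.sum_add_distrib, ← Finset.mul_sum, dot]
            simp only [← Finset.sum_mul]
      _ = _ := by ring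
  set W : Fin n → Fin n → ℝ := fun i j => 2 * c0 * G i j + M i j with hW
  have h1 : (∑ i, W i i) ^ 2 ≤ n * ∑ i, W i i ^ 2 := by
    simpa using sq_sum_le_card_mul_sum_sq (s := Finset.univ) (f := fun i => W i i)
  have h2 : ∑ i, W i i ^ 2 ≤ ∑ i, ∑ j, W i j ^ 2 :=
    Finset.sum_le_sum fun i _ => Finset.single_le_sum (f := fun j => W i j ^ 2)
      (fun j _ => sq_nonneg _) (Finset.mem_univ i)
  have h3 : ∑ i, W i i = 2 * c0 * (∑ i, G i i) + (u * dot X Y + v * dot Y Y) := by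
    rw [← hT, Finset.mul_sum, ← Finset.sum_add_distrib]
  have h4 : ∑ i, ∑ j, W i j ^ 2 = 4 * c0 ^ 2 * sq G
      + 4 * c0 * (u * quad G X Y + v * quad G Y Y) + ∑ i, ∑ j, M i j ^ 2 := by
    rw [← hNG, sq]
    simp only [Finset.mul_sum, ← Finset.sum_add_distrib]
    exact Finset.sum_congr rfl fun i _ => Finset.sum_congr rfl fun j _ => by
      simp only [hW]; ring
  have hnpos : (0 : ℝ) < n := by exact_mod_cast hn
  have h5 : (∑ i, W i i) ^ 2 / n ≤ ∑ i, ∑ j, W i j ^ 2 := by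
    rw [div_le_iff₀ hnpos]
    nlinarith
  rw [h3, h4, hNN] at h5
  set T := ∑ i, G i i
  set U := u * dot X Y + v * dot Y Y
  set Z := u ^ 2 * (dot X X * dot Y Y + dot X Y ^ 2) / 2
      + 2 * u * v * dot X Y * dot Y Y + v ^ 2 * dot Y Y ^ 2
  have h6 : (c0 * T ^ 2 + U * T) / n - (Z - U ^ 2 / n) / (4 * c0)
      = ((2 * c0 * T + U) ^ 2 / n - Z) / (4 * c0) := by field_simp; ring
  rw [h6, div_le_iff₀ (by positivity)]
  nlinarith

lemma form_nonneg {α β γ a c b : ℝ} (hα : 0 < α) (hd : γ ^ 2 < 4 * α * β) (ha : 0 ≤ a)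
    (hb : 0 ≤ b) (hc : c ^ 2 ≤ a * b) : 0 ≤ α * a + γ * c + β * b := by
  have hβ : 0 < β := by nlinarith [sq_nonneg γ]
  have h : (γ * c) ^ 2 ≤ (α * a + β * b) ^ 2 := by
    have h1 : γ ^ 2 * c ^ 2 ≤ 4 * α * β * (a * b) :=
      mul_le_mul hd.le hc (sq_nonneg c) (by positivity)
    nlinarith [sq_nonneg (α * a - β * b)]
  have h2 := abs_le_of_sq_le_sq h (by positivity)
  linarith [neg_abs_le (γ * c)]

lemma form4_nonneg {α κ γ β a c b : ℝ} (hκ : κ ≤ 0) (h0 : 0 < α + κ)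
    (hd : γ ^ 2 < 4 * (α + κ) * β) (hb : 0 ≤ b) (hc : c ^ 2 ≤ a * b) :
    0 ≤ α * (a * b) + κ * c ^ 2 + γ * c * b + β * b ^ 2 := by
  have hα : 0 < α := by linarith
  have h1 : (α + κ) * c ^ 2 ≤ α * (a * b) + κ * c ^ 2 := by
    nlinarith [mul_le_mul_of_nonneg_left hc hα.le]
  have h2 := form_nonneg h0 hd (a := c ^ 2) (c := c * b) (b := b ^ 2) (sq_nonneg _)
    (sq_nonneg _) (by ring_nf; rfl)
  nlinarith

/-- The integrand of the identity. -/
def Jfun (π : Par) (p q : ℝ) (G : Fin n → Fin n → ℝ) (X Y : Fin n → ℝ) (P Q : ℝ) : ℝ :=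
  sq G + π.m1 * quad G X Y + π.m2 * quad G Y Y - Q * (q * dot X Y - dot Y Y)
  + π.c * ((π.a * dot X X + π.b * dot X Y) * dot Y Y + (-P - dot X X) * dot Y Y)
  + π.d * ((π.a * dot X Y + π.b * dot Y Y) * dot Y Y + (-Q - dot Y Y) * dot Y Y)
  + π.k1 * P * (-P + (π.a - 2) * dot X X + (π.b + p) * dot X Y)
  + π.k2 * Q * (-P + (π.a - 1 + q) * dot X X + (π.b - 1) * dot X Y)
  + π.k3 * P * (-Q + (π.a - 1) * dot X Y + (π.b - 1 + p) * dot Y Y)
  + π.k4 * Q * (-Q + (π.a + q) * dot X Y + (π.b - 2) * dot Y Y)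

/-- The positive quantity controlled by the integrand. -/
def Mfun (G : Fin n → Fin n → ℝ) (X Y : Fin n → ℝ) (P Q : ℝ) : ℝ :=
  sq G + dot X X * dot Y Y + dot Y Y ^ 2 + P * (dot X X + dot Y Y) + Q * (dot X X + dot Y Y)
    + P ^ 2 + Q ^ 2

lemma pointwise {π : Par} {p q e : ℝ} (hn : 2 ≤ n) (he0 : 0 < e) (he : e < 1)
    (h : π.Cond n p q e) (G : Fin n → Fin n → ℝ) (hG : ∀ i j, G i j = G j i)
    (X Y : Fin n → ℝ) {P Q : ℝ} (hP : 0 ≤ P) (hQ : 0 ≤ Q)
    (htr : ∑ i, G i i = -Q - dot Y Y) :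
    e * Mfun G X Y P Q ≤ Jfun π p q G X Y P Q := by
  obtain ⟨h1, h2, h3, h4, h5, h6, h7, h8, h9⟩ := h
  have hN : (2 : ℝ) ≤ n := by exact_mod_cast hn
  have hT := trace_lower (by omega) G hG X Y π.m1 π.m2 (1 - e) (by linarith)
  rw [htr] at hT
  set A1 := dot X X
  set C1 := dot X Y
  set B1 := dot Y Y
  have hA : 0 ≤ A1 := dot_self_nonneg X
  have hB : 0 ≤ B1 := dot_self_nonneg Y
  have hC : C1 ^ 2 ≤ A1 * B1 := dot_sq_le X Y
  have hC0 : π.cC n e ≤ 0 := by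
    have : (1 : ℝ) / n ≤ 1 / 2 := one_div_le_one_div_of_le two_pos hN
    apply div_nonpos_of_nonpos_of_nonneg
    · nlinarith [sq_nonneg π.m1]
    · linarith
  have f1 := form4_nonneg hC0 h1 h2 hB hC
  have f2 := mul_nonneg hP (form_nonneg h3 h4 hA hB hC)
  have f3 := mul_nonneg hQ (form_nonneg h5 h6 hA hB hC)
  have f4 : 0 ≤ π.cPP e * P ^ 2 + π.cPQ * (P * Q) + π.cQQ n e * Q ^ 2 := by
    rcases h9 with h9 | h9
    · positivity
    · exact form_nonneg h7 h9 (sq_nonneg P) (sq_nonneg Q) (by ring_nf; rfl)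
  simp only [Par.cA, Par.cB, Par.cC, Par.cE, Par.cPa, Par.cPb, Par.cPc, Par.cQa, Par.cQb,
    Par.cQc, Par.cPP, Par.cPQ, Par.cQQ] at f1 f2 f3 f4
  simp only [Jfun, Mfun]
  have hn0 : (n : ℝ) ≠ 0 := by positivity
  have he' : (1 - e) ≠ 0 := by linarith
  have hdiv : ∀ x k : ℝ, x / (k * (1 - e)) = x / k * (1 - e)⁻¹ := fun x k => by
    rw [div_mul_eq_div_div, div_eq_mul_inv (x / k)]
  simp only [A1, B1, C1, hdiv] at *
  generalize (1 - e)⁻¹ = ι at *
  generalize hS : sq G = S at *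
  linear_combination f1 + f2 + f3 + f4 + hT

end

end Vale.Agent.P100
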