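import Mathlib

/-!
Calculus on Euclidean space: integration by parts and commutation of first derivatives
under the integral sign for `C^1` functions.
-/

open MeasureTheory Filter Topology
open scoped ContDiff

noncomputable section

namespace Vale.Agent.P100

abbrev Euc (n : ℕ) := EuclideanSpace ℝ (Fin n)

variable {n : ℕ}

def ev (i : Fin n) : Euc n := EuclideanSpace.single i (1 : ℝ)

/-- partial derivative -/
def pd (i : Fin n) (f : Euc n → ℝ) (x : Euc n) : ℝ := fderiv ℝ f x (ev i)

lemma norm_ev (i : Fin n) : ‖ev i‖ = 1 := by simp [ev]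

lemma continuous_pd {f : Euc n → ℝ} (hf : ContDiff ℝ 1 f) (i : Fin n) :
    Continuous (pd i f) :=
  (hf.continuous_fderiv one_ne_zero).clm_apply continuous_const

lemma contDiff_pd {f : Euc n → ℝ} (hf : ContDiff ℝ 2 f) (i : Fin n) :
    ContDiff ℝ 1 (pd i f) :=
  (hf.fderiv_right (m := 1) (by norm_num)).clm_apply contDiff_const

lemma hasCompactSupport_pd {f : Euc n → ℝ} (hf : HasCompactSupport f) (i : Fin n) :
    HasCompactSupport (pd i f) :=
  hf.fderiv_apply ℝ (ev i)

lemma integral_pd_mul {f g : Euc n → ℝ} (hf : ContDiff ℝ 1 f) (hc : HasCompactSupport f)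
    (hg : ContDiff ℝ 1 g) (i : Fin n) :
    ∫ x, f x * pd i g x = - ∫ x, pd i f x * g x :=
  integral_mul_fderiv_eq_neg_fderiv_mul_of_integrable (𝕜 := ℝ) (f := f) (g := g) (v := ev i)
    (((continuous_pd hf i).mul hg.continuous).integrable_of_hasCompactSupport
      ((hasCompactSupport_pd hc i).mul_right))
    ((hf.continuous.mul (continuous_pd hg i)).integrable_of_hasCompactSupport hc.mul_right)
    ((hf.continuous.mul hg.continuous).integrable_of_hasCompactSupport hc.mul_right)
    (fun x _ => (hf.differentiable one_ne_zero).differentiableAt)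
    (fun x _ => (hg.differentiable one_ne_zero).differentiableAt)

lemma integral_pd_eq_zero {f : Euc n → ℝ} (hf : ContDiff ℝ 1 f) (hc : HasCompactSupport f)
    (i : Fin n) : ∫ x, pd i f x = 0 := by
  have h := integral_pd_mul hf hc (g := fun _ => (1 : ℝ)) contDiff_const i
  have h0 : ∀ x, pd i (fun _ : Euc n => (1 : ℝ)) x = 0 := by
    intro x; simp [pd]
  simp only [h0, mul_zero, integral_zero, mul_one] at h
  linarith

lemma tendsto_diff_quot {w : Euc n → ℝ} (hw : ContDiff ℝ 1 w) (x d : Euc n) :
    Tendsto (fun m : ℕ => ((m : ℝ) + 1) * (w (x + ((m : ℝ) + 1)⁻¹ • d) - w x)) atTop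
      (𝓝 (fderiv ℝ w x d)) := by
  have h1 : HasLineDerivAt ℝ w (fderiv ℝ w x d) x d :=
    ((hw.differentiable one_ne_zero).differentiableAt.hasFDerivAt).hasLineDerivAt d
  have h2 := h1.tendsto_slope_zero
  have h3 : Tendsto (fun m : ℕ => ((m : ℝ) + 1)⁻¹) atTop (𝓝[≠] (0 : ℝ)) := by
    rw [tendsto_nhdsWithin_iff]
    refine ⟨?_, Eventually.of_forall fun m => ?_⟩
    · simpa [one_div] using tendsto_one_div_add_atTop_nhds_zero_nat (𝕜 := ℝ)
    · exact inv_ne_zero (by positivity)
  have h4 := h2.comp h3
  simpa [Function.comp_def] using h4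

/-- `∫ ∂ᵢψ ∂ⱼw = ∫ ∂ⱼψ ∂ᵢw` for `C¹` functions, `ψ` with compact support. -/
lemma integral_pd_comm {ψ w : Euc n → ℝ} (hψ : ContDiff ℝ 1 ψ) (hc : HasCompactSupport ψ)
    (hw : ContDiff ℝ 1 w) (i j : Fin n) :
    ∫ x, pd i ψ x * pd j w x = ∫ x, pd j ψ x * pd i w x := by
  obtain ⟨R, hR⟩ := hc.isCompact.isBounded.subset_closedBall 0
  set K : Set (Euc n) := Metric.closedBall 0 (R + 2) with hK
  have hKc : IsCompact K := isCompact_closedBall _ _
  obtain ⟨Cw, hCw⟩ := hKc.exists_bound_of_continuousOn
    (hw.continuous_fderiv one_ne_zero).continuousOn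
  obtain ⟨Cψ, hCψ⟩ := hKc.exists_bound_of_continuousOn
    (hψ.continuous_fderiv one_ne_zero).continuousOn
  set Wh : ℕ → Euc n → ℝ := fun m x =>
    ((m : ℝ) + 1) * (w (x + ((m : ℝ) + 1)⁻¹ • ev j) - w x) with hWh
  set Ph : ℕ → Euc n → ℝ := fun m x =>
    ((m : ℝ) + 1) * (ψ x - ψ (x + -(((m : ℝ) + 1)⁻¹ • ev j))) with hPh
  -- the discrete identity
  have hdisc : ∀ m : ℕ, ∫ x, pd i ψ x * Wh m x = ∫ x, Ph m x * pd i w x := by
    intro m
    set d : Euc n := ((m : ℝ) + 1)⁻¹ • ev j with hd
    have hWcd : ContDiff ℝ 1 (Wh m) :=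
      contDiff_const.mul ((hw.comp (contDiff_id.add contDiff_const)).sub hw)
    have h := integral_pd_mul hψ hc hWcd i
    have hpW : ∀ x, pd i (Wh m) x = ((m : ℝ) + 1) * (pd i w (x + d) - pd i w x) := by
      intro x
      have h1 : HasFDerivAt (fun y => w (y + d)) (fderiv ℝ w (x + d)) x := by
        have := ((hw.differentiable one_ne_zero) (x + d)).hasFDerivAt
        simpa [Function.comp_def] using this.comp x ((hasFDerivAt_id x).add_const d)
      have h2' := ((h1.fun_sub ((hw.differentiable one_ne_zero) x).hasFDerivAt).const_mul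
        ((m : ℝ) + 1))
      have h2 := h2'.fderiv
      simp only [pd, hWh]
      rw [← hd, h2]
      simp
    simp only [hpW] at h
    have hI1 : Integrable (fun x => ψ x * pd i w x) :=
      (hψ.continuous.mul (continuous_pd hw i)).integrable_of_hasCompactSupport hc.mul_right
    have hI2 : Integrable (fun x => ψ x * pd i w (x + d)) :=
      (hψ.continuous.mul ((continuous_pd hw i).comp
        (continuous_id.add continuous_const))).integrable_of_hasCompactSupport hc.mul_right
    have hI3 : Integrable (fun x => ψ (x + -d) * pd i w x) := by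
      have := hI2.comp_add_right (-d)
      simpa using this
    have hshift : ∫ x, ψ x * pd i w (x + d) = ∫ x, ψ (x + -d) * pd i w x := by
      rw [← integral_add_right_eq_self (fun x => ψ x * pd i w (x + d)) (-d)]
      simp
    have hl : ∫ x, ψ x * (((m : ℝ) + 1) * (pd i w (x + d) - pd i w x))
        = ((m : ℝ) + 1) * ((∫ x, ψ x * pd i w (x + d)) - ∫ x, ψ x * pd i w x) := by
      rw [← integral_sub hI2 hI1, ← integral_const_mul]
      exact integral_congr_ae (Eventually.of_forall fun x => by simp only; ring)
    have hr : ∫ x, Ph m x * pd i w x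
        = ((m : ℝ) + 1) * ((∫ x, ψ x * pd i w x) - ∫ x, ψ (x + -d) * pd i w x) := by
      rw [← integral_sub hI1 hI3, ← integral_const_mul]
      exact integral_congr_ae (Eventually.of_forall fun x => by simp only [hPh, hd]; ring)
    rw [hr, ← hshift]
    linarith
  have hsmall : ∀ m : ℕ, ‖((m : ℝ) + 1)⁻¹ • ev j‖ ≤ 1 := by
    intro m
    rw [norm_smul, norm_ev, mul_one, Real.norm_of_nonneg (by positivity)]
    exact inv_le_one_of_one_le₀ (by simp)
  have hquot : ∀ (f : Euc n → ℝ), ContDiff ℝ 1 f → ∀ C : ℝ,
      (∀ y ∈ K, ‖fderiv ℝ f y‖ ≤ C) → ∀ (m : ℕ) (a b : Euc n), a ∈ K → b ∈ K →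
      ‖b - a‖ ≤ ((m : ℝ) + 1)⁻¹ → |((m : ℝ) + 1) * (f b - f a)| ≤ C := by
    intro f hf C hC m a b ha hb hab
    have h1 := (convex_closedBall (0 : Euc n) (R + 2)).norm_image_sub_le_of_norm_fderiv_le
      (fun y _ => hf.differentiable one_ne_zero y) hC ha hb
    have hC0 : 0 ≤ C := le_trans (norm_nonneg _) (hC a ha)
    have hm : (0 : ℝ) < (m : ℝ) + 1 := by positivity
    rw [abs_mul, abs_of_pos hm]
    calc ((m : ℝ) + 1) * |f b - f a| ≤ ((m : ℝ) + 1) * (C * ((m : ℝ) + 1)⁻¹) := by
          refine mul_le_mul_of_nonneg_left ?_ hm.le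
          exact le_trans (by simpa [Real.norm_eq_abs] using h1)
            (mul_le_mul_of_nonneg_left hab hC0)
      _ = C := by field_simp
  have hnorm : ∀ m : ℕ, ‖((m : ℝ) + 1)⁻¹ • ev j‖ = ((m : ℝ) + 1)⁻¹ := by
    intro m; rw [norm_smul, norm_ev, mul_one, Real.norm_of_nonneg (by positivity)]
  have hL : Tendsto (fun m => ∫ x, pd i ψ x * Wh m x) atTop
      (𝓝 (∫ x, pd i ψ x * pd j w x)) := by
    refine tendsto_integral_of_dominated_convergence (fun x => |pd i ψ x| * |Cw|) ?_ ?_ ?_ ?_
    · intro m
      exact ((continuous_pd hψ i).mul (continuous_const.mul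
        ((hw.continuous.comp (continuous_id.add continuous_const)).sub hw.continuous))).aestronglyMeasurable
    · exact ((continuous_pd hψ i).abs.mul continuous_const).integrable_of_hasCompactSupport
        (((hasCompactSupport_pd hc i).comp_left abs_zero).mul_right)
    · intro m
      refine Eventually.of_forall fun x => ?_
      rw [Real.norm_eq_abs, abs_mul]
      by_cases hx : pd i ψ x = 0
      · simp [hx]
      refine mul_le_mul_of_nonneg_left (le_trans ?_ (le_abs_self Cw)) (abs_nonneg _)
      have hxs : x ∈ tsupport ψ := by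
        have : x ∈ Function.support (fderiv ℝ ψ) := by
          intro h; exact hx (by simp [pd, h])
        exact support_fderiv_subset ℝ this
      have hxR := hR hxs
      simp only [Metric.mem_closedBall, dist_zero_right] at hxR
      refine hquot w hw Cw hCw m _ _ ?_ ?_ ?_
      · simp [hK]; linarith
      · simp only [hK, Metric.mem_closedBall, dist_zero_right]
        have := norm_add_le x (((m : ℝ) + 1)⁻¹ • ev j)
        linarith [hsmall m]
      · simp [hnorm]
    · exact Eventually.of_forall fun x => (tendsto_diff_quot hw x (ev j)).const_mul _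
  have hRt : Tendsto (fun m => ∫ x, Ph m x * pd i w x) atTop
      (𝓝 (∫ x, pd j ψ x * pd i w x)) := by
    refine tendsto_integral_of_dominated_convergence
      (fun x => |Cψ| * (Set.indicator K (fun y => |pd i w y|) x)) ?_ ?_ ?_ ?_
    · intro m
      exact ((continuous_const.mul (hψ.continuous.sub
        (hψ.continuous.comp (continuous_id.add continuous_const)))).mul
        (continuous_pd hw i)).aestronglyMeasurable
    · exact (((continuous_pd hw i).abs.continuousOn.integrableOn_compact hKc).integrable_indicator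
        measurableSet_closedBall).const_mul _
    · intro m
      refine Eventually.of_forall fun x => ?_
      rw [Real.norm_eq_abs, abs_mul]
      by_cases hx : x ∈ K
      · rw [Set.indicator_of_mem hx]
        refine mul_le_mul_of_nonneg_right ?_ (abs_nonneg _)
        by_cases hx2 : x + -(((m : ℝ) + 1)⁻¹ • ev j) ∈ K
        · refine le_trans ?_ (le_abs_self Cψ)
          exact hquot ψ hψ Cψ hCψ m _ _ hx2 hx (by simp [hnorm])
        · have h1 : x + -(((m : ℝ) + 1)⁻¹ • ev j) ∉ tsupport ψ := fun h => hx2
            (Metric.closedBall_subset_closedBall (by linarith) (hR h))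
          have h2 : x ∉ tsupport ψ := by
            intro h
            have hxR := hR h
            simp only [Metric.mem_closedBall, dist_zero_right] at hxR
            apply hx2
            simp only [hK, Metric.mem_closedBall, dist_zero_right]
            have := norm_add_le x (-(((m : ℝ) + 1)⁻¹ • ev j))
            rw [norm_neg] at this
            linarith [hsmall m]
          simp [hPh, image_eq_zero_of_notMem_tsupport h1, image_eq_zero_of_notMem_tsupport h2]
      · rw [Set.indicator_of_notMem hx, mul_zero]
        have h2 : x ∉ tsupport ψ := fun h => hx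
          (Metric.closedBall_subset_closedBall (by linarith) (hR h))
        have h1 : x + -(((m : ℝ) + 1)⁻¹ • ev j) ∉ tsupport ψ := by
          intro h
          have hxR := hR h
          simp only [Metric.mem_closedBall, dist_zero_right] at hxR
          apply hx
          simp only [hK, Metric.mem_closedBall, dist_zero_right]
          have := norm_sub_norm_le x (((m : ℝ) + 1)⁻¹ • ev j)
          rw [← sub_eq_add_neg] at hxR
          linarith [hsmall m]
        simp [hPh, image_eq_zero_of_notMem_tsupport h1, image_eq_zero_of_notMem_tsupport h2]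
    · refine Eventually.of_forall fun x => Tendsto.mul_const _ ?_
      have h := (tendsto_diff_quot hψ x (-ev j)).neg
      simp only [map_neg, neg_neg] at h
      refine h.congr fun m => ?_
      simp only [hPh, smul_neg]
      ring
  exact tendsto_nhds_unique hL (by simpa only [hdisc] using hRt)

end Vale.Agent.P100
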