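import Vale.Agent.P100.Calc
import Vale.Agent.P100.Algebra

/-!
The integral identity and the local estimate.
-/

open MeasureTheory Filter Topology
open scoped ContDiff

noncomputable section

namespace Vale.Agent.P100

variable {n : ℕ}

lemma pd_mul' {f g : Euc n → ℝ} {x : Euc n} (hf : DifferentiableAt ℝ f x)
    (hg : DifferentiableAt ℝ g x) (i : Fin n) :
    pd i (fun y => f y * g y) x = pd i f x * g x + f x * pd i g x := by
  simp only [pd, fderiv_fun_mul hf hg]
  simp; ring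

lemma pd_add' {f g : Euc n → ℝ} {x : Euc n} (hf : DifferentiableAt ℝ f x)
    (hg : DifferentiableAt ℝ g x) (i : Fin n) :
    pd i (fun y => f y + g y) x = pd i f x + pd i g x := by
  simp only [pd, fderiv_fun_add hf hg]
  simp

lemma pd_comp {f : Euc n → ℝ} {h : ℝ → ℝ} {h' : ℝ} {x : Euc n} (hf : DifferentiableAt ℝ f x)
    (hh : HasDerivAt h h' (f x)) (i : Fin n) :
    pd i (fun y => h (f y)) x = h' * pd i f x := by
  have := (hh.comp_hasFDerivAt x hf.hasFDerivAt).fderiv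
  simp only [Function.comp_def] at this
  simp [pd, this]

lemma pd_const_mul {f : Euc n → ℝ} {x : Euc n} (c : ℝ) (hf : DifferentiableAt ℝ f x) (i : Fin n) :
    pd i (fun y => c * f y) x = c * pd i f x := by
  have := pd_comp hf ((hasDerivAt_id (f x)).const_mul c) i
  simpa using this

lemma pd_div {f g : Euc n → ℝ} {x : Euc n} (hf : DifferentiableAt ℝ f x)
    (hg : DifferentiableAt ℝ g x) (h0 : g x ≠ 0) (i : Fin n) :
    pd i (fun y => f y / g y) x = pd i f x / g x - f x * pd i g x / g x ^ 2 := by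
  have h1 : pd i (fun y => (g y)⁻¹) x = -(g x ^ 2)⁻¹ * pd i g x :=
    pd_comp hg (hasDerivAt_inv h0) i
  simp only [div_eq_mul_inv]
  rw [pd_mul' hf (hg.fun_inv h0) i, h1]
  ring

variable (u v : Euc n → ℝ) (π : Par) (p q : ℝ)

def Xf (i : Fin n) (x : Euc n) : ℝ := pd i u x / u x
def Gf (i j : Fin n) (x : Euc n) : ℝ := pd i (pd j v) x / v x - Xf v i x * Xf v j x
def Pf (x : Euc n) : ℝ := v x ^ p / u x
def wf (x : Euc n) : ℝ := Real.exp (π.a * Real.log (u x) + π.b * Real.log (v x))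
def Bf (x : Euc n) : ℝ := ∑ j, Xf v j x * Xf v j x
def K1 (x : Euc n) : ℝ := π.c * Bf v x + π.k1 * Pf u v p x + π.k2 * Pf v u q x
def K2 (x : Euc n) : ℝ := (π.d - 1) * Bf v x + π.k3 * Pf u v p x + (π.k4 - 1) * Pf v u q x

/-- auxiliary scalar weight -/
def phi (ζ : Euc n → ℝ) (x : Euc n) : ℝ := ζ x * (wf u v π x / v x ^ 2)

/-- the commutation part of the identity -/
def Icomm (ζ : Euc n → ℝ) (x : Euc n) : ℝ :=
  ∑ i, ∑ j, (pd i (fun y => phi u v π ζ y * pd j v y) x * pd j (pd i v) x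
    - pd j (fun y => phi u v π ζ y * pd j v y) x * pd i (pd i v) x)

/-- the divergence part of the identity -/
def Idiv (ζ : Euc n → ℝ) (x : Euc n) : ℝ :=
  ∑ i, pd i (fun y => ζ y * (wf u v π y * (K1 u v π p q y * Xf u i y
    + K2 u v π p q y * Xf v i y))) x

variable {u v π p q}

section Smooth

variable (hu : ContDiff ℝ 2 u) (hv : ContDiff ℝ 2 v) (hup : ∀ x, 0 < u x) (hvp : ∀ x, 0 < v x)

include hu hup in
lemma contDiff_Xf (i : Fin n) : ContDiff ℝ 1 (Xf u i) :=
  (contDiff_pd hu i).div (hu.of_le one_le_two) fun x => (hup x).ne'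

include hv hvp in
lemma contDiff_Bf : ContDiff ℝ 1 (Bf v) :=
  ContDiff.sum fun j _ => (contDiff_Xf hv hvp j).mul (contDiff_Xf hv hvp j)

include hu hv hup hvp in
lemma contDiff_Pf (p : ℝ) : ContDiff ℝ 1 (Pf u v p) :=
  ((hv.of_le one_le_two).rpow_const_of_ne fun x => (hvp x).ne').div
    (hu.of_le one_le_two) fun x => (hup x).ne'

include hu hv hup hvp in
lemma contDiff_wf (π : Par) : ContDiff ℝ 1 (wf u v π) :=
  ((contDiff_const.mul ((hu.of_le one_le_two).log fun x => (hup x).ne')).add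
    (contDiff_const.mul ((hv.of_le one_le_two).log fun x => (hvp x).ne'))).exp

include hu hv hup hvp in
lemma contDiff_K1 : ContDiff ℝ 1 (K1 u v π p q) :=
  ((contDiff_const.mul (contDiff_Bf hv hvp)).add
    (contDiff_const.mul (contDiff_Pf hu hv hup hvp p))).add
    (contDiff_const.mul (contDiff_Pf hv hu hvp hup q))

include hu hv hup hvp in
lemma contDiff_K2 : ContDiff ℝ 1 (K2 u v π p q) :=
  ((contDiff_const.mul (contDiff_Bf hv hvp)).add
    (contDiff_const.mul (contDiff_Pf hu hv hup hvp p))).add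
    (contDiff_const.mul (contDiff_Pf hv hu hvp hup q))

include hu hup in
lemma pd_Xf (i j : Fin n) (x : Euc n) :
    pd i (Xf u j) x = Gf u i j x := by
  have h := pd_div ((contDiff_pd hu j).differentiable one_ne_zero x)
    ((hu.of_le one_le_two).differentiable one_ne_zero x) (hup x).ne' i
  have h0 := (hup x).ne'
  change pd i (fun y => pd j u y / u y) x = _
  rw [h, Gf, Xf, Xf]
  field_simp

include hv hvp in
lemma pd_Bf (i : Fin n) (x : Euc n) :
    pd i (Bf v) x = 2 * ∑ j, Gf v i j x * Xf v j x := by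
  have hd : ∀ j, DifferentiableAt ℝ (fun y => Xf v j y * Xf v j y) x := fun j =>
    ((contDiff_Xf hv hvp j).mul (contDiff_Xf hv hvp j)).differentiable one_ne_zero x
  have h : pd i (Bf v) x = ∑ j, pd i (fun y => Xf v j y * Xf v j y) x := by
    change fderiv ℝ (fun y => ∑ j, Xf v j y * Xf v j y) x (ev i) = _
    rw [fderiv_fun_sum fun j _ => hd j]
    simp [pd]
  rw [h, Finset.mul_sum]
  refine Finset.sum_congr rfl fun j _ => ?_
  rw [pd_mul' ((contDiff_Xf hv hvp j).differentiable one_ne_zero x)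
    ((contDiff_Xf hv hvp j).differentiable one_ne_zero x), pd_Xf hv hvp]
  ring

include hu hv hup hvp in
lemma pd_Pf (p : ℝ) (i : Fin n) (x : Euc n) :
    pd i (Pf u v p) x = Pf u v p x * (p * Xf v i x - Xf u i x) := by
  have hdv := (hv.of_le one_le_two).differentiable one_ne_zero x
  have h1 : pd i (fun y => v y ^ p) x = p * v x ^ (p - 1) * pd i v x :=
    pd_comp hdv (Real.hasDerivAt_rpow_const (Or.inl (hvp x).ne')) i
  have h := pd_div (((hv.of_le one_le_two).rpow_const_of_ne (p := p)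
      fun x => (hvp x).ne').differentiable one_ne_zero x)
    ((hu.of_le one_le_two).differentiable one_ne_zero x) (hup x).ne' i
  change pd i (fun y => v y ^ p / u y) x = _
  rw [h, h1, Pf, Xf, Xf, Real.rpow_sub_one (hvp x).ne']
  have := (hup x).ne'; have := (hvp x).ne'
  field_simp

include hu hv hup hvp in
lemma pd_wf (i : Fin n) (x : Euc n) :
    pd i (wf u v π) x = wf u v π x * (π.a * Xf u i x + π.b * Xf v i x) := by
  have hdu := (hu.of_le one_le_two).differentiable one_ne_zero x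
  have hdv := (hv.of_le one_le_two).differentiable one_ne_zero x
  have h1 := hdu.log (hup x).ne'
  have h2 := hdv.log (hvp x).ne'
  have e1 : pd i (fun y => Real.log (u y)) x = (u x)⁻¹ * pd i u x :=
    pd_comp hdu (Real.hasDerivAt_log (hup x).ne') i
  have e2 : pd i (fun y => Real.log (v y)) x = (v x)⁻¹ * pd i v x :=
    pd_comp hdv (Real.hasDerivAt_log (hvp x).ne') i
  have h3 := pd_comp (((h1.const_mul π.a).fun_add (h2.const_mul π.b)))
    (Real.hasDerivAt_exp _) i
  change pd i (fun y => Real.exp (π.a * Real.log (u y) + π.b * Real.log (v y))) x = _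
  rw [h3, pd_add' (h1.const_mul π.a) (h2.const_mul π.b), pd_const_mul _ h1,
    pd_const_mul _ h2, e1, e2, wf, Xf, Xf]
  field_simp

end Smooth

/-- The boundary vector of the identity. -/
def Vfun (π : Par) (G : Fin n → Fin n → ℝ) (X Y : Fin n → ℝ) (P Q : ℝ) (i : Fin n) : ℝ :=
  (∑ j, G i j * Y j) + (π.c * dot Y Y + π.k1 * P + π.k2 * Q) * X i
    + (π.d * dot Y Y + π.k3 * P + π.k4 * Q) * Y i

lemma expand (π : Par) (p q : ℝ) (G : Fin n → Fin n → ℝ) (hG : ∀ i j, G i j = G j i)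
    (X Y z dX dY : Fin n → ℝ) (ζ w P Q : ℝ) (htr : ∑ i, G i i = -Q - dot Y Y)
    (hdX : ∑ i, dX i = -P - dot X X) (hdY : dY = fun i => G i i) :
    (∑ i, ∑ j, ((w * (z i + ζ * (π.a * X i + (π.b - 2) * Y i)) * Y j
        + ζ * w * (G i j + Y i * Y j)) * (G j i + Y j * Y i)
      - (w * (z j + ζ * (π.a * X j + (π.b - 2) * Y j)) * Y j
        + ζ * w * (G j j + Y j * Y j)) * (G i i + Y i * Y i)))
    + ∑ i, (z i * (w * ((π.c * dot Y Y + π.k1 * P + π.k2 * Q) * X i
          + ((π.d - 1) * dot Y Y + π.k3 * P + (π.k4 - 1) * Q) * Y i))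
      + ζ * (w * (π.a * X i + π.b * Y i) * ((π.c * dot Y Y + π.k1 * P + π.k2 * Q) * X i
          + ((π.d - 1) * dot Y Y + π.k3 * P + (π.k4 - 1) * Q) * Y i)
        + w * ((π.c * (2 * ∑ j, G i j * Y j) + π.k1 * (P * (p * Y i - X i))
              + π.k2 * (Q * (q * X i - Y i))) * X i
            + (π.c * dot Y Y + π.k1 * P + π.k2 * Q) * dX i
            + ((π.d - 1) * (2 * ∑ j, G i j * Y j) + π.k3 * (P * (p * Y i - X i))
              + (π.k4 - 1) * (Q * (q * X i - Y i))) * Y i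
            + ((π.d - 1) * dot Y Y + π.k3 * P + (π.k4 - 1) * Q) * dY i)))
    = ζ * w * Jfun π p q G X Y P Q + w * ∑ i, z i * Vfun π G X Y P Q i := by
  subst hdY
  set W : Fin n → ℝ := fun i => w * (z i + ζ * (π.a * X i + (π.b - 2) * Y i)) with hW
  have hM : ∀ i j, (G i j + Y i * Y j) * (G j i + Y j * Y i)
      = G i j ^ 2 + 2 * (Y i * G i j * Y j) + (Y i * Y i) * (Y j * Y j) := by
    intro i j; rw [← hG i j]; ring
  have s1 : ∑ i, ∑ j, (w * (z i + ζ * (π.a * X i + (π.b - 2) * Y i)) * Y j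
        + ζ * w * (G i j + Y i * Y j)) * (G j i + Y j * Y i)
      = (∑ i, W i * ∑ j, G i j * Y j) + (dot Y Y) * dot W Y
        + ζ * w * (sq G + 2 * quad G Y Y + dot Y Y * dot Y Y) := by
    have e : dot Y Y * dot Y Y = ∑ i, ∑ j, (Y i * Y i) * (Y j * Y j) :=
      Finset.sum_mul_sum _ _ _ _
    have e' : dot Y Y * dot W Y = ∑ i, ∑ j, (Y j * Y j) * (W i * Y i) := by
      rw [mul_comm, dot, dot, Finset.sum_mul_sum]
      exact Finset.sum_congr rfl fun i _ => Finset.sum_congr rfl fun j _ => by ring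
    rw [e, e', sq, quad]
    simp only [Finset.mul_sum, ← Finset.sum_add_distrib]
    refine Finset.sum_congr rfl fun i _ => Finset.sum_congr rfl fun j _ => ?_
    simp only [hW]
    rw [← hG i j]
    ring
  have s2 : ∑ i, ∑ j, (w * (z j + ζ * (π.a * X j + (π.b - 2) * Y j)) * Y j
        + ζ * w * (G j j + Y j * Y j)) * (G i i + Y i * Y i)
      = (dot W Y + ζ * w * (-Q)) * (-Q) := by
    have e : -Q = ∑ i, (G i i + Y i * Y i) := by
      rw [Finset.sum_add_distrib, htr, dot]; ring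
    conv_rhs => rw [e]
    rw [dot, Finset.mul_sum, Finset.mul_sum, ← Finset.sum_add_distrib]
    refine Finset.sum_congr rfl fun i _ => ?_
    rw [Finset.sum_mul]
  have s3 : ∀ f : Fin n → ℝ, ∑ i, f i * ∑ j, G i j * Y j = quad G f Y := by
    intro f
    simp only [quad, Finset.mul_sum]
    exact Finset.sum_congr rfl fun i _ => Finset.sum_congr rfl fun j _ => by ring
  simp only [Finset.sum_sub_distrib]
  rw [s1, s2, s3]
  have qW : quad G W Y = w * quad G z Y + ζ * w * (π.a * quad G X Y + (π.b - 2) * quad G Y Y) := by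
    simp only [quad, hW, Finset.mul_sum, ← Finset.sum_add_distrib]
    exact Finset.sum_congr rfl fun i _ => Finset.sum_congr rfl fun j _ => by ring
  have dW : dot W Y = w * dot z Y + ζ * w * (π.a * dot X Y + (π.b - 2) * dot Y Y) := by
    simp only [dot, hW, Finset.mul_sum, ← Finset.sum_add_distrib]
    exact Finset.sum_congr rfl fun i _ => by ring
  set K := π.c * dot Y Y + π.k1 * P + π.k2 * Q
  set L := (π.d - 1) * dot Y Y + π.k3 * P + (π.k4 - 1) * Q
  have s4 : ∑ i, (z i * (w * (K * X i + L * Y i))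
      + ζ * (w * (π.a * X i + π.b * Y i) * (K * X i + L * Y i)
        + w * ((π.c * (2 * ∑ j, G i j * Y j) + π.k1 * (P * (p * Y i - X i))
              + π.k2 * (Q * (q * X i - Y i))) * X i
            + K * dX i
            + ((π.d - 1) * (2 * ∑ j, G i j * Y j) + π.k3 * (P * (p * Y i - X i))
              + (π.k4 - 1) * (Q * (q * X i - Y i))) * Y i
            + L * G i i)))
      = w * (K * dot z X + L * dot z Y) + ζ * w * (π.a * (K * dot X X + L * dot X Y)
          + π.b * (K * dot X Y + L * dot Y Y))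
        + ζ * w * (2 * π.c * quad G X Y + π.k1 * P * (p * dot X Y - dot X X)
            + π.k2 * Q * (q * dot X X - dot X Y))
        + ζ * w * (2 * (π.d - 1) * quad G Y Y + π.k3 * P * (p * dot Y Y - dot X Y)
            + (π.k4 - 1) * Q * (q * dot X Y - dot Y Y))
        + ζ * w * (K * (∑ i, dX i) + L * (∑ i, G i i)) := by
    rw [← s3 X, ← s3 Y]
    generalize hg : (fun i => ∑ j, G i j * Y j) = g
    have hg' : ∀ i, ∑ j, G i j * Y j = g i := fun i => congrFun hg i
    simp only [hg']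
    simp only [dot, Finset.mul_sum, mul_add, mul_sub, ← Finset.sum_add_distrib,
      ← Finset.sum_sub_distrib]
    exact Finset.sum_congr rfl fun i _ => by ring
  rw [s4, hdX, htr, qW, dW]
  have s5 : ∑ i, z i * Vfun π G X Y P Q i
      = quad G z Y + K * dot z X + (L + dot Y Y + Q) * dot z Y := by
    rw [← s3 z]
    simp only [Vfun]
    generalize hg : (fun i => ∑ j, G i j * Y j) = g
    have hg' : ∀ i, ∑ j, G i j * Y j = g i := fun i => congrFun hg i
    simp only [hg', K, L]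
    generalize dot Y Y = B
    simp only [dot, Finset.mul_sum, ← Finset.sum_add_distrib]
    exact Finset.sum_congr rfl fun i _ => by ring
  rw [s5]
  simp only [Jfun, Par.m1, Par.m2, K, L]
  ring

/-- squared gradient -/
def grad2 (f : Euc n → ℝ) (x : Euc n) : ℝ := ∑ i, pd i f x ^ 2

lemma grad2_nonneg (f : Euc n → ℝ) (x : Euc n) : 0 ≤ grad2 f x :=
  Finset.sum_nonneg fun _ _ => sq_nonneg _

lemma pd_symm {f : Euc n → ℝ} (hf : ContDiff ℝ 2 f) (i j : Fin n) (x : Euc n) :
    pd i (pd j f) x = pd j (pd i f) x := by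
  have h : ∀ k l : Fin n, pd k (pd l f) x = fderiv ℝ (fderiv ℝ f) x (ev k) (ev l) := by
    intro k l
    change fderiv ℝ (fun y => fderiv ℝ f y (ev l)) x (ev k) = _
    rw [fderiv_clm_apply (((hf.fderiv_right (m := 1) (by norm_num)).differentiable one_ne_zero) x)
      (differentiableAt_const _)]
    simp
  rw [h, h]
  exact (hf.contDiffAt.isSymmSndFDerivAt (by simp)) _ _

lemma Mfun_lower (G : Fin n → Fin n → ℝ) (X Y : Fin n → ℝ) {P Q : ℝ} (hP : 0 ≤ P) (hQ : 0 ≤ Q) :
    (P + Q) ^ 2 ≤ 2 * Mfun G X Y P Q := by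
  have h1 := mul_nonneg hP (dot_self_nonneg X)
  have h2 := mul_nonneg hP (dot_self_nonneg Y)
  have h3 := mul_nonneg hQ (dot_self_nonneg X)
  have h4 := mul_nonneg hQ (dot_self_nonneg Y)
  have h5 := mul_nonneg (dot_self_nonneg X) (dot_self_nonneg Y)
  have h6 := sq_nonneg' G
  have h7 := sq_nonneg (dot Y Y)
  have h8 : (P + Q) ^ 2 ≤ 2 * P ^ 2 + 2 * Q ^ 2 := by linarith [two_mul_le_add_sq P Q]
  simp only [Mfun]
  linarith

lemma boundary_bound (π : Par) (G : Fin n → Fin n → ℝ) (X Y r : Fin n → ℝ) (P Q : ℝ)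
    (hP : 0 ≤ P) (hQ : 0 ≤ Q) {δ : ℝ} (hδ : 0 < δ) :
    |∑ i, r i * Vfun π G X Y P Q i| ≤
      (2 + |π.c| + |π.d| + |π.k1| + |π.k2| + |π.k3| + |π.k4|) *
        (2 * δ * Mfun G X Y P Q + (dot r r) ^ 2 / (64 * δ ^ 3)) := by
  have hX := dot_self_nonneg X
  have hY := dot_self_nonneg Y
  have hR := dot_self_nonneg r
  set R := dot r r
  set B := dot Y Y
  have hM : 0 ≤ Mfun G X Y P Q := by
    have := sq_nonneg' G
    simp only [Mfun]; positivity
  have key : ∀ T : ℝ, T * R / (4 * δ) ≤ δ * T ^ 2 + R ^ 2 / (64 * δ ^ 3) := by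
    intro T
    rw [div_le_iff₀ (by positivity)]
    field_simp
    nlinarith [sq_nonneg (8 * δ ^ 2 * T - R)]
  have hdot : ∀ (T : ℝ) (Z : Fin n → ℝ), 0 ≤ T →
      |T * dot r Z| ≤ δ * (T * dot Z Z) + δ * T ^ 2 + R ^ 2 / (64 * δ ^ 3) := by
    intro T Z hT
    have h1 : |dot r Z| ≤ δ * dot Z Z + R / (4 * δ) := by
      calc |dot r Z| ≤ ∑ i, |r i * Z i| := Finset.abs_sum_le_sum_abs _ _
        _ ≤ ∑ i, (δ * (Z i * Z i) + r i * r i / (4 * δ)) :=
          Finset.sum_le_sum fun i _ => by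
            rw [abs_le]
            constructor <;>
            · field_simp
              nlinarith [sq_nonneg (2 * δ * Z i - r i), sq_nonneg (2 * δ * Z i + r i)]
        _ = _ := by
            simp only [R, dot, Finset.mul_sum, Finset.sum_div, ← Finset.sum_add_distrib]
    rw [abs_mul, abs_of_nonneg hT]
    calc T * |dot r Z| ≤ T * (δ * dot Z Z + R / (4 * δ)) := mul_le_mul_of_nonneg_left h1 hT
      _ = δ * (T * dot Z Z) + T * R / (4 * δ) := by ring
      _ ≤ _ := by linarith [key T]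
  have hG : |quad G r Y| ≤ δ * sq G + δ * B ^ 2 + R ^ 2 / (64 * δ ^ 3) := by
    calc |quad G r Y| ≤ ∑ i, |∑ j, r i * G i j * Y j| := Finset.abs_sum_le_sum_abs _ _
      _ ≤ ∑ i, ∑ j, |r i * G i j * Y j| :=
          Finset.sum_le_sum fun i _ => Finset.abs_sum_le_sum_abs _ _
      _ ≤ ∑ i, ∑ j, (δ * G i j ^ 2 + (r i * r i) * (Y j * Y j) / (4 * δ)) :=
          Finset.sum_le_sum fun i _ => Finset.sum_le_sum fun j _ => by
            rw [abs_le]
            constructor <;>
            · field_simp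
              nlinarith [sq_nonneg (2 * δ * G i j - r i * Y j),
                sq_nonneg (2 * δ * G i j + r i * Y j)]
      _ = δ * sq G + B * R / (4 * δ) := by
          have : B * R = ∑ i, ∑ j, (r i * r i) * (Y j * Y j) := by
            rw [mul_comm]; exact Finset.sum_mul_sum _ _ _ _
          rw [this, sq]
          simp only [Finset.mul_sum, Finset.sum_div, ← Finset.sum_add_distrib]
      _ ≤ _ := by linarith [key B]
  have hsum : ∑ i, r i * Vfun π G X Y P Q i = quad G r Y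
      + π.c * (B * dot r X) + π.k1 * (P * dot r X) + π.k2 * (Q * dot r X)
      + π.d * (B * dot r Y) + π.k3 * (P * dot r Y) + π.k4 * (Q * dot r Y) := by
    have s3 : quad G r Y = ∑ i, r i * ∑ j, G i j * Y j := by
      simp only [quad, Finset.mul_sum]
      exact Finset.sum_congr rfl fun i _ => Finset.sum_congr rfl fun j _ => by ring
    rw [s3]
    simp only [Vfun]
    generalize hg : (fun i => ∑ j, G i j * Y j) = g
    have hg' : ∀ i, ∑ j, G i j * Y j = g i := fun i => congrFun hg i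
    simp only [hg']
    change ∑ i, r i * (g i + (π.c * B + π.k1 * P + π.k2 * Q) * X i
      + (π.d * B + π.k3 * P + π.k4 * Q) * Y i) = _
    simp only [dot, Finset.mul_sum, ← Finset.sum_add_distrib]
    exact Finset.sum_congr rfl fun i _ => by ring
  have bd : ∀ (k T : ℝ) (Z : Fin n → ℝ), 0 ≤ T → T * dot Z Z + T ^ 2 ≤ 2 * Mfun G X Y P Q →
      |k * (T * dot r Z)| ≤ |k| * (2 * δ * Mfun G X Y P Q + R ^ 2 / (64 * δ ^ 3)) := by
    intro k T Z hT h
    rw [abs_mul]
    refine mul_le_mul_of_nonneg_left ((hdot T Z hT).trans ?_) (abs_nonneg k)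
    nlinarith
  have m := sq_nonneg' G
  have p1 := mul_nonneg hP hX
  have p2 := mul_nonneg hP hY
  have p3 := mul_nonneg hQ hX
  have p4 := mul_nonneg hQ hY
  have p5 := mul_nonneg hX hY
  have p6 := sq_nonneg B
  have p7 := sq_nonneg P
  have p8 := sq_nonneg Q
  have hMe : Mfun G X Y P Q = sq G + dot X X * B + B ^ 2 + P * (dot X X + B)
      + Q * (dot X X + B) + P ^ 2 + Q ^ 2 := rfl
  have bB : B * dot Y Y = B ^ 2 := by simp only [B]; ring
  have b1 := bd π.c B X hY (by linarith)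
  have b2 := bd π.k1 P X hP (by linarith)
  have b3 := bd π.k2 Q X hQ (by linarith)
  have b4 := bd π.d B Y hY (by linarith)
  have b5 := bd π.k3 P Y hP (by linarith)
  have b6 := bd π.k4 Q Y hQ (by linarith)
  have b0 : |quad G r Y| ≤ 2 * (2 * δ * Mfun G X Y P Q + R ^ 2 / (64 * δ ^ 3)) := by
    refine hG.trans ?_
    have h1 : δ * (sq G + B ^ 2) ≤ δ * Mfun G X Y P Q :=
      mul_le_mul_of_nonneg_left (by linarith) hδ.le
    have : 0 ≤ δ * Mfun G X Y P Q := mul_nonneg hδ.le hM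
    have : 0 ≤ R ^ 2 / (64 * δ ^ 3) := by positivity
    linarith
  rw [hsum]
  generalize 2 * δ * Mfun G X Y P Q + R ^ 2 / (64 * δ ^ 3) = Z at *
  have a1 := abs_add_le (quad G r Y) (π.c * (B * dot r X))
  have a2 := abs_add_le (quad G r Y + π.c * (B * dot r X)) (π.k1 * (P * dot r X))
  have a3 := abs_add_le (quad G r Y + π.c * (B * dot r X) + π.k1 * (P * dot r X))
    (π.k2 * (Q * dot r X))
  have a4 := abs_add_le (quad G r Y + π.c * (B * dot r X) + π.k1 * (P * dot r X)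
    + π.k2 * (Q * dot r X)) (π.d * (B * dot r Y))
  have a5 := abs_add_le (quad G r Y + π.c * (B * dot r X) + π.k1 * (P * dot r X)
    + π.k2 * (Q * dot r X) + π.d * (B * dot r Y)) (π.k3 * (P * dot r Y))
  have a6 := abs_add_le (quad G r Y + π.c * (B * dot r X) + π.k1 * (P * dot r X)
    + π.k2 * (Q * dot r X) + π.d * (B * dot r Y) + π.k3 * (P * dot r Y)) (π.k4 * (Q * dot r Y))
  linarith

lemma weight_absorb {w T R κ c : ℝ} (hw : 0 ≤ w) (hT : 0 ≤ T) (hR : 0 ≤ R) (hκ : 0 < κ)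
    (hc : 0 ≤ c) (hwT : w ≤ T ^ c) :
    w * R ^ 2 ≤ κ ^ 2 * (w * T ^ 2) + κ⁻¹ ^ c * R ^ (c + 2) := by
  have hn : 0 ≤ κ⁻¹ ^ c * R ^ (c + 2) := by positivity
  rcases le_total R (κ * T) with h | h
  · have : w * R ^ 2 ≤ w * (κ * T) ^ 2 :=
      mul_le_mul_of_nonneg_left (pow_le_pow_left₀ hR h 2) hw
    nlinarith
  · have h1 : w ≤ (R * κ⁻¹) ^ c := by
      refine hwT.trans (Real.rpow_le_rpow hT ?_ hc)
      rw [← div_eq_mul_inv, le_div_iff₀ hκ]; linarith
    have h2 : w * R ^ 2 ≤ κ⁻¹ ^ c * R ^ (c + 2) := by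
      calc w * R ^ 2 ≤ (R * κ⁻¹) ^ c * R ^ 2 :=
            mul_le_mul_of_nonneg_right h1 (pow_two_nonneg R)
        _ = _ := by
          rw [Real.mul_rpow hR (inv_nonneg.2 hκ.le)]
          rcases eq_or_lt_of_le hR with h0 | h0
          · simp [← h0, Real.zero_rpow (by linarith : c + 2 ≠ 0)]
          · rw [Real.rpow_add h0, Real.rpow_two]; ring
    have : 0 ≤ κ ^ 2 * (w * T ^ 2) := by positivity
    linarith

lemma wf_le (u v : Euc n → ℝ) (π : Par) {p q : ℝ} (x : Euc n) (hu : 0 < u x) (hv : 0 < v x)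
    (hpq : 1 < p * q) (h1 : 0 ≤ π.a + π.b * q) (h2 : 0 ≤ π.a * p + π.b) :
    wf u v π x ≤ (Pf u v p x + Pf v u q x) ^
      ((π.a + π.b * q + (π.a * p + π.b)) / (p * q - 1)) := by
  set c1 := (π.a + π.b * q) / (p * q - 1)
  set c2 := (π.a * p + π.b) / (p * q - 1)
  have hd : (0 : ℝ) < p * q - 1 := by linarith
  have hP : 0 < Pf u v p x := div_pos (Real.rpow_pos_of_pos hv _) hu
  have hQ : 0 < Pf v u q x := div_pos (Real.rpow_pos_of_pos hu _) hv
  have he : wf u v π x = Pf u v p x ^ c1 * Pf v u q x ^ c2 := by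
    rw [Real.rpow_def_of_pos hP, Real.rpow_def_of_pos hQ, ← Real.exp_add, wf]
    congr 1
    simp only [Pf, Real.log_div (Real.rpow_pos_of_pos hv _).ne' hu.ne',
      Real.log_div (Real.rpow_pos_of_pos hu _).ne' hv.ne', Real.log_rpow hv, Real.log_rpow hu, c1,
      c2]
    field_simp
    ring
  have hsum : (π.a + π.b * q + (π.a * p + π.b)) / (p * q - 1) = c1 + c2 := by
    simp only [c1, c2, add_div]
  rw [he, hsum, Real.rpow_add (by positivity)]
  exact mul_le_mul (Real.rpow_le_rpow hP.le (by linarith) (div_nonneg h1 hd.le))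
    (Real.rpow_le_rpow hQ.le (by linarith) (div_nonneg h2 hd.le)) (by positivity) (by positivity)

section Identity

variable {u v : Euc n → ℝ} {π : Par} {p q : ℝ}

/-- The full integrand. -/
def Itot (u v : Euc n → ℝ) (π : Par) (p q : ℝ) (ζ : Euc n → ℝ) (x : Euc n) : ℝ :=
  Icomm u v π ζ x + Idiv u v π p q ζ x

lemma contDiff_phi (hu : ContDiff ℝ 2 u) (hv : ContDiff ℝ 2 v) (hup : ∀ x, 0 < u x)
    (hvp : ∀ x, 0 < v x) {ζ : Euc n → ℝ} (hζ : ContDiff ℝ 1 ζ) : ContDiff ℝ 1 (phi u v π ζ) :=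
  hζ.mul ((contDiff_wf hu hv hup hvp π).div ((hv.of_le one_le_two).pow 2)
    fun x => (pow_pos (hvp x) 2).ne')

lemma integrable_Itot (hu : ContDiff ℝ 2 u) (hv : ContDiff ℝ 2 v) (hup : ∀ x, 0 < u x)
    (hvp : ∀ x, 0 < v x) {ζ : Euc n → ℝ} (hζ : ContDiff ℝ 1 ζ) (hc : HasCompactSupport ζ) :
    Integrable (Itot u v π p q ζ) ∧ ∫ x, Itot u v π p q ζ x = 0 := by
  have hψ : ∀ j, ContDiff ℝ 1 (fun y => phi u v π ζ y * pd j v y) := fun j =>
    (contDiff_phi hu hv hup hvp hζ).mul (contDiff_pd hv j)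
  have hψc : ∀ j, HasCompactSupport (fun y => phi u v π ζ y * pd j v y) := fun j =>
    (hc.mul_right).mul_right
  have hi : ∀ i j k l : Fin n, Integrable (fun x =>
      pd i (fun y => phi u v π ζ y * pd j v y) x * pd k (pd l v) x) := fun i j k l =>
    ((continuous_pd (hψ j) i).mul (continuous_pd (contDiff_pd hv l) k)).integrable_of_hasCompactSupport
      ((hasCompactSupport_pd (hψc j) i).mul_right)
  have hF : ∀ i : Fin n, ContDiff ℝ 1 (fun y => ζ y * (wf u v π y * (K1 u v π p q y * Xf u i y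
      + K2 u v π p q y * Xf v i y))) := fun i =>
    hζ.mul ((contDiff_wf hu hv hup hvp π).mul
      (((contDiff_K1 hu hv hup hvp).mul (contDiff_Xf hu hup i)).add
        ((contDiff_K2 hu hv hup hvp).mul (contDiff_Xf hv hvp i))))
  have hFi : ∀ i : Fin n, Integrable (pd i (fun y => ζ y * (wf u v π y * (K1 u v π p q y * Xf u i y
      + K2 u v π p q y * Xf v i y)))) := fun i =>
    (continuous_pd (hF i) i).integrable_of_hasCompactSupport
      (hasCompactSupport_pd hc.mul_right i)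
  have hc1 : Integrable (Icomm u v π ζ) :=
    integrable_finsetSum _ fun i _ => integrable_finsetSum _ fun j _ =>
      (hi i j j i).sub (hi j j i i)
  have hc2 : Integrable (Idiv u v π p q ζ) := integrable_finsetSum _ fun i _ => hFi i
  refine ⟨hc1.add hc2, ?_⟩
  change ∫ x, (Icomm u v π ζ x + Idiv u v π p q ζ x) = 0
  have z1 : ∫ x, Icomm u v π ζ x = 0 := by
    simp only [Icomm]
    rw [integral_finsetSum]
    · refine Finset.sum_eq_zero fun i _ => ?_
      rw [integral_finsetSum]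
      · refine Finset.sum_eq_zero fun j _ => ?_
        rw [integral_sub (hi i j j i) (hi j j i i),
          integral_pd_comm (hψ j) (hψc j) (contDiff_pd hv i) i j, sub_self]
      · exact fun j _ => (hi i j j i).sub (hi j j i i)
    · exact fun i _ => integrable_finsetSum _ fun j _ => (hi i j j i).sub (hi j j i i)
  have z2 : ∫ x, Idiv u v π p q ζ x = 0 := by
    simp only [Idiv]
    rw [integral_finsetSum _ fun i _ => hFi i]
    exact Finset.sum_eq_zero fun i _ => integral_pd_eq_zero (hF i) hc.mul_right i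
  rw [integral_add hc1 hc2, z1, z2, add_zero]

lemma Itot_eq (hu : ContDiff ℝ 2 u) (hv : ContDiff ℝ 2 v) (hup : ∀ x, 0 < u x)
    (hvp : ∀ x, 0 < v x) {ζ : Euc n → ℝ} (hζ : ContDiff ℝ 1 ζ) {x : Euc n}
    (e1 : ∑ i, pd i (pd i u) x = -(v x ^ p)) (e2 : ∑ i, pd i (pd i v) x = -(u x ^ q)) :
    (∑ i, Gf v i i x = -Pf v u q x - dot (fun i => Xf v i x) (fun i => Xf v i x)) ∧
    Itot u v π p q ζ x =
      ζ x * wf u v π x * Jfun π p q (fun i j => Gf v i j x) (fun i => Xf u i x)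
          (fun i => Xf v i x) (Pf u v p x) (Pf v u q x)
      + wf u v π x * ∑ i, pd i ζ x * Vfun π (fun i j => Gf v i j x) (fun i => Xf u i x)
          (fun i => Xf v i x) (Pf u v p x) (Pf v u q x) i := by
  have hv0 := (hvp x).ne'
  have tru : ∀ {f g : Euc n → ℝ} {r : ℝ}, 0 < f x → ∑ i, pd i (pd i f) x = -(g x ^ r) →
      ∑ i, Gf f i i x = -Pf f g r x - dot (fun i => Xf f i x) (fun i => Xf f i x) := by
    intro f g r _ h
    simp only [Gf, Finset.sum_sub_distrib, ← Finset.sum_div, h, Pf, dot]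
    ring
  have hGsym : ∀ i j, Gf v i j x = Gf v j i x := by
    intro i j; simp only [Gf]; rw [pd_symm hv i j x]; ring
  have htr := tru (g := u) (r := q) (hvp x) e2
  refine ⟨htr, ?_⟩
  rw [← expand π p q (fun i j => Gf v i j x) hGsym (fun i => Xf u i x) (fun i => Xf v i x)
    (fun i => pd i ζ x) (fun i => Gf u i i x) (fun i => Gf v i i x) (ζ x) (wf u v π x)
    (Pf u v p x) (Pf v u q x) htr (tru (g := v) (r := p) (hup x) e1) rfl]
  have dζ := hζ.differentiable one_ne_zero x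
  have dw := (contDiff_wf hu hv hup hvp π).differentiable one_ne_zero x
  have dv := (hv.of_le one_le_two).differentiable one_ne_zero x
  have dv2 : DifferentiableAt ℝ (fun y => v y ^ 2) x := dv.pow 2
  have hphi : ∀ i, pd i (phi u v π ζ) x = wf u v π x / v x ^ 2
      * (pd i ζ x + ζ x * (π.a * Xf u i x + (π.b - 2) * Xf v i x)) := by
    intro i
    change pd i (fun y => ζ y * (wf u v π y / v y ^ 2)) x = _
    have dwv : DifferentiableAt ℝ (fun y => wf u v π y / v y ^ 2) x :=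
      ((contDiff_wf hu hv hup hvp π).div ((hv.of_le one_le_two).pow 2)
        fun z => (pow_pos (hvp z) 2).ne').differentiable one_ne_zero x
    rw [pd_mul' dζ dwv, pd_div dw dv2 (pow_ne_zero 2 hv0),
      pd_comp dv (hasDerivAt_pow 2 (v x)), pd_wf hu hv hup hvp]
    simp only [Xf]
    field_simp
    ring
  have hH : ∀ i j, pd i (pd j v) x = v x * (Gf v i j x + Xf v i x * Xf v j x) := by
    intro i j; simp only [Gf]; field_simp; ring
  have hψ : ∀ i j, pd i (fun y => phi u v π ζ y * pd j v y) x =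
      pd i (phi u v π ζ) x * pd j v x + phi u v π ζ x * pd i (pd j v) x := fun i j =>
    pd_mul' ((contDiff_phi hu hv hup hvp hζ).differentiable one_ne_zero x)
      ((contDiff_pd hv j).differentiable one_ne_zero x) i
  refine congrArg₂ (· + ·) ?_ ?_
  · simp only [Icomm]
    refine Finset.sum_congr rfl fun i _ => Finset.sum_congr rfl fun j _ => ?_
    rw [hψ i j, hψ j j, hphi i, hphi j, hH i j, hH j i, hH i i, hH j j]
    simp only [phi, Xf]
    field_simp
  · simp only [Idiv]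
    refine Finset.sum_congr rfl fun i _ => ?_
    have dK1 := (contDiff_K1 (π := π) (p := p) (q := q) hu hv hup hvp).differentiable one_ne_zero x
    have dK2 := (contDiff_K2 (π := π) (p := p) (q := q) hu hv hup hvp).differentiable one_ne_zero x
    have dX := (contDiff_Xf hu hup i).differentiable one_ne_zero x
    have dY := (contDiff_Xf hv hvp i).differentiable one_ne_zero x
    have dB := (contDiff_Bf hv hvp).differentiable one_ne_zero x
    have dP := (contDiff_Pf hu hv hup hvp p).differentiable one_ne_zero x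
    have dQ := (contDiff_Pf hv hu hvp hup q).differentiable one_ne_zero x
    have hK : ∀ (c k l : ℝ), pd i (fun y => c * Bf v y + k * Pf u v p y + l * Pf v u q y) x
        = c * (2 * ∑ j, Gf v i j x * Xf v j x) + k * (Pf u v p x * (p * Xf v i x - Xf u i x))
          + l * (Pf v u q x * (q * Xf u i x - Xf v i x)) := by
      intro c k l
      rw [pd_add' ((dB.const_mul c).fun_add (dP.const_mul k)) (dQ.const_mul l),
        pd_add' (dB.const_mul c) (dP.const_mul k), pd_const_mul _ dB, pd_const_mul _ dP,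
        pd_const_mul _ dQ, pd_Bf hv hvp, pd_Pf hu hv hup hvp, pd_Pf hv hu hvp hup]
    rw [pd_mul' dζ (dw.fun_mul ((dK1.fun_mul dX).fun_add (dK2.fun_mul dY))),
      pd_mul' dw ((dK1.fun_mul dX).fun_add (dK2.fun_mul dY)),
      pd_add' (dK1.fun_mul dX) (dK2.fun_mul dY), pd_mul' dK1 dX, pd_mul' dK2 dY,
      pd_wf hu hv hup hvp, pd_Xf hu hup, pd_Xf hv hvp]
    simp only [show K1 u v π p q = fun y => π.c * Bf v y + π.k1 * Pf u v p y + π.k2 * Pf v u q y
      from rfl, show K2 u v π p q = fun y => (π.d - 1) * Bf v y + π.k3 * Pf u v p y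
      + (π.k4 - 1) * Pf v u q y from rfl, hK]
    simp only [Bf, dot]
    ring

lemma rpow_scalar_bound {η S k c : ℝ} (hη : 0 < η) (hη1 : η ≤ 1) (hS : 0 ≤ S) (hk : 0 < k)
    (hc : 2 ≤ c) (hkc : 2 * c ≤ k) :
    η ^ k * (k ^ 2 * S / η ^ 2) ^ c ≤ (k ^ 2) ^ c * S ^ c := by
  rw [Real.div_rpow (by positivity) (by positivity), Real.mul_rpow (by positivity) hS]
  have h : η ^ k ≤ (η ^ 2) ^ c := by
    rw [← Real.rpow_natCast η 2, ← Real.rpow_mul hη.le]
    exact Real.rpow_le_rpow_of_exponent_ge hη hη1 (by push_cast; linarith)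
  rw [mul_div_assoc', div_le_iff₀ (by positivity)]
  calc η ^ k * ((k ^ 2) ^ c * S ^ c) ≤ (η ^ 2) ^ c * ((k ^ 2) ^ c * S ^ c) :=
        mul_le_mul_of_nonneg_right h (by positivity)
    _ = _ := by ring

lemma scalar_fin {η S w T A e D c : ℝ} {k : ℕ} (h0 : 0 < η) (hη1 : η ≤ 1) (hS : 0 ≤ S)
    (hw : 0 < w) (hT : 0 ≤ T) (he : 0 < e) (hD : 0 < D) (hc : 0 ≤ c) (hk1 : 1 ≤ k)
    (hkR : 2 * (c + 2) ≤ (k : ℝ)) (hwT : w ≤ T ^ c)
    (hkey : e / 4 * T ^ 2 ≤ A + D * ((k : ℝ) ^ 2 * S / η ^ 2) ^ 2) :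
    e / 8 * (η ^ k * (w * T ^ 2)) ≤ η ^ k * w * A
        + (D * ((k : ℝ) ^ 2) ^ (2 : ℝ)
          + D * (Real.sqrt (e / (8 * D)))⁻¹ ^ c * ((k : ℝ) ^ 2) ^ (c + 2)) * (w * S ^ 2) ∧
    e / 8 * (η ^ k * (w * T ^ 2)) ≤ η ^ k * w * A
        + (D * ((k : ℝ) ^ 2) ^ (2 : ℝ)
          + D * (Real.sqrt (e / (8 * D)))⁻¹ ^ c * ((k : ℝ) ^ 2) ^ (c + 2)) * S ^ (c + 2) := by
  set R := (k : ℝ) ^ 2 * S / η ^ 2 with hRdef
  have hR0 : 0 ≤ R := by positivity
  set κ0 := Real.sqrt (e / (8 * D)) with hκ0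
  have hκ0p : 0 < κ0 := Real.sqrt_pos.2 (by positivity)
  have hηk : 0 < η ^ k := pow_pos h0 k
  have hkey' : e / 4 * (η ^ k * (w * T ^ 2)) ≤ η ^ k * w * A + D * (η ^ k * (w * R ^ 2)) := by
    have := mul_le_mul_of_nonneg_left hkey (mul_pos hηk hw).le
    linarith
  have hk0 : (0 : ℝ) < k := by exact_mod_cast hk1
  have hpos : 0 ≤ e / 8 * (η ^ k * (w * T ^ 2)) := by positivity
  constructor
  · have h3 := rpow_scalar_bound h0 hη1 hS hk0 (le_refl 2) (by linarith)
    rw [Real.rpow_natCast, ← hRdef, Real.rpow_two R, Real.rpow_two S] at h3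
    have h4 : D * (η ^ k * (w * R ^ 2)) ≤ D * ((k : ℝ) ^ 2) ^ (2 : ℝ) * (w * S ^ 2) := by
      have := mul_le_mul_of_nonneg_left h3 (mul_pos hD hw).le
      linarith
    have : 0 ≤ D * κ0⁻¹ ^ c * ((k : ℝ) ^ 2) ^ (c + 2) * (w * S ^ 2) := by positivity
    linarith
  · have h3 := rpow_scalar_bound h0 hη1 hS hk0 (by linarith : (2 : ℝ) ≤ c + 2) (by linarith)
    rw [Real.rpow_natCast, ← hRdef] at h3
    have h5 := weight_absorb hw.le hT hR0 hκ0p hc hwT
    have hsq : κ0 ^ 2 = e / (8 * D) := Real.sq_sqrt (by positivity)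
    have h6 : D * (η ^ k * (w * R ^ 2))
        ≤ D * (η ^ k * (κ0 ^ 2 * (w * T ^ 2) + κ0⁻¹ ^ c * R ^ (c + 2))) :=
      mul_le_mul_of_nonneg_left (mul_le_mul_of_nonneg_left h5 hηk.le) hD.le
    have h7 : D * κ0 ^ 2 = e / 8 := by rw [hsq]; field_simp
    have h8 : D * κ0 ^ 2 * (η ^ k * (w * T ^ 2)) = e / 8 * (η ^ k * (w * T ^ 2)) := by rw [h7]
    have h9 := mul_le_mul_of_nonneg_left h3 (by positivity : 0 ≤ D * κ0⁻¹ ^ c)
    have : 0 ≤ D * ((k : ℝ) ^ 2) ^ (2 : ℝ) * S ^ (c + 2) := by positivity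
    linarith

/-- The pointwise estimate for a cut-off `η ^ k`. -/
theorem pointwise_cutoff (hn : 2 ≤ n) (hpq : 1 < p * q) (hπ : π.Cond n p q 0)
    (h1 : 0 ≤ π.a + π.b * q) (h2 : 0 ≤ π.a * p + π.b) :
    ∃ (k : ℕ) (κ C : ℝ), 1 ≤ k ∧ 0 < κ ∧ 0 ≤ C ∧
      ∀ (u v η : Euc n → ℝ), ContDiff ℝ 2 u → ContDiff ℝ 2 v → (∀ x, 0 < u x) →
        (∀ x, 0 < v x) → ContDiff ℝ 1 η → (∀ x, 0 ≤ η x ∧ η x ≤ 1) →
        ∀ x, ((∑ i, pd i (pd i u) x = -(v x ^ p)) ∧ (∑ i, pd i (pd i v) x = -(u x ^ q))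
              ∨ x ∉ tsupport η) →
          κ * (η x ^ k * (wf u v π x * (Pf u v p x + Pf v u q x) ^ 2)) ≤
              Itot u v π p q (fun y => η y ^ k) x + C * (wf u v π x * grad2 η x ^ 2) ∧
          κ * (η x ^ k * (wf u v π x * (Pf u v p x + Pf v u q x) ^ 2)) ≤
              Itot u v π p q (fun y => η y ^ k) x
              + C * grad2 η x ^ ((π.a + π.b * q + (π.a * p + π.b)) / (p * q - 1) + 2) := by
  obtain ⟨e, he0, he1, hce⟩ := π.exists_small n p q hπ
  set c := (π.a + π.b * q + (π.a * p + π.b)) / (p * q - 1) with hc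
  have hc0 : 0 ≤ c := div_nonneg (by linarith) (by linarith)
  set C0 := 2 + |π.c| + |π.d| + |π.k1| + |π.k2| + |π.k3| + |π.k4| with hC0
  have hC0p : 0 < C0 := by positivity
  set δ := e / (4 * C0) with hδ
  have hδp : 0 < δ := by positivity
  set D := C0 / (64 * δ ^ 3) with hD
  have hDp : 0 < D := by positivity
  set k := ⌈2 * (c + 2)⌉₊ with hk
  have hk1 : 1 ≤ k := Nat.one_le_iff_ne_zero.2 (by
    simp only [hk, ne_eq, Nat.ceil_eq_zero, not_le]; linarith)
  have hkR : 2 * (c + 2) ≤ (k : ℝ) := Nat.le_ceil _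
  set κ0 := Real.sqrt (e / (8 * D)) with hκ0
  have hκ0p : 0 < κ0 := Real.sqrt_pos.2 (by positivity)
  set C := D * ((k : ℝ) ^ 2) ^ (2 : ℝ) + D * κ0⁻¹ ^ c * ((k : ℝ) ^ 2) ^ (c + 2) with hC
  refine ⟨k, e / 8, C, hk1, by positivity, by positivity, ?_⟩
  intro u v η hu hv hup hvp hη hηb x hx
  have hw : 0 < wf u v π x := Real.exp_pos _
  have hS := grad2_nonneg η x
  rcases hx with ⟨e1, e2⟩ | hx
  swap
  · have hz : ∀ᶠ y in 𝓝 x, η y = 0 := notMem_tsupport_iff_eventuallyEq.1 hx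
    have hζ0 : (fun y => η y ^ k) =ᶠ[𝓝 x] fun _ => (0 : ℝ) :=
      hz.mono fun y hy => by simp [hy, zero_pow (by omega : k ≠ 0)]
    have hI : Itot u v π p q (fun y => η y ^ k) x = 0 := by
      have hp : ∀ (f : Euc n → ℝ) i, pd i (fun y => η y ^ k * f y) x = 0 := by
        intro f i
        have : (fun y => η y ^ k * f y) =ᶠ[𝓝 x] fun _ => (0 : ℝ) :=
          hζ0.mono fun y hy => by simp only at hy; simp [hy]
        simp [pd, this.fderiv_eq]
      simp [Itot, Icomm, Idiv, phi, mul_assoc, hp]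
    rw [hI, hz.self_of_nhds, zero_pow (by omega : k ≠ 0)]
    constructor <;> simp only [zero_mul, mul_zero, zero_add] <;> positivity
  have hζ : ContDiff ℝ 1 (fun y => η y ^ k) := hη.pow k
  obtain ⟨htr, hI⟩ := Itot_eq (π := π) hu hv hup hvp hζ e1 e2
  have hdζ : ∀ i, pd i (fun y => η y ^ k) x = (k : ℝ) * η x ^ (k - 1) * pd i η x := fun i =>
    pd_comp (hη.differentiable one_ne_zero x) (hasDerivAt_pow k (η x)) i
  simp only [hdζ] at hI
  rw [hI]
  set w := wf u v π x
  set G := fun i j => Gf v i j x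
  set X := fun i => Xf u i x
  set Y := fun i => Xf v i x
  set P := Pf u v p x with hPdef
  set Q := Pf v u q x with hQdef
  have hP : 0 < P := div_pos (Real.rpow_pos_of_pos (hvp x) _) (hup x)
  have hQ : 0 < Q := div_pos (Real.rpow_pos_of_pos (hup x) _) (hvp x)
  rcases eq_or_lt_of_le (hηb x).1 with h0 | h0
  · have hk2 : 2 ≤ k := by exact_mod_cast (le_trans (by linarith) hkR : (2 : ℝ) ≤ k)
    rw [← h0, zero_pow (by omega : k ≠ 0), zero_pow (by omega : k - 1 ≠ 0)]
    constructor <;> simp <;> positivity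
  have hGsym : ∀ i j, G i j = G j i := fun i j => by
    simp only [G, Gf]; rw [pd_symm hv i j x]; ring
  have hJ := pointwise hn he0 he1 hce G hGsym X Y hP.le hQ.le htr
  set r : Fin n → ℝ := fun i => (k : ℝ) * pd i η x / η x with hr
  have hb := boundary_bound π G X Y r P Q hP.le hQ.le hδp
  have hsum : ∑ i, (k : ℝ) * η x ^ (k - 1) * pd i η x * Vfun π G X Y P Q i
      = η x ^ k * ∑ i, r i * Vfun π G X Y P Q i := by
    rw [Finset.mul_sum]
    refine Finset.sum_congr rfl fun i _ => ?_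
    rw [show η x ^ k = η x ^ (k - 1) * η x by rw [← pow_succ]; congr 1; omega, hr]
    field_simp
  rw [hsum]
  have hR : dot r r = (k : ℝ) ^ 2 * grad2 η x / η x ^ 2 := by
    simp only [dot, hr, grad2, Finset.mul_sum, Finset.sum_div]
    exact Finset.sum_congr rfl fun i _ => by field_simp
  rw [hR] at hb
  set S := grad2 η x
  set R := (k : ℝ) ^ 2 * S / η x ^ 2 with hRdef
  have hR0 : 0 ≤ R := by positivity
  have hM : (P + Q) ^ 2 ≤ 2 * Mfun G X Y P Q := Mfun_lower G X Y hP.le hQ.le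
  have hkey : e / 4 * (P + Q) ^ 2 ≤ Jfun π p q G X Y P Q
      + (∑ i, r i * Vfun π G X Y P Q i) + D * R ^ 2 := by
    have hb' := (abs_le.1 hb).1
    rw [← hC0] at hb'
    have : C0 * (2 * δ * Mfun G X Y P Q + R ^ 2 / (64 * δ ^ 3))
        = e / 2 * Mfun G X Y P Q + D * R ^ 2 := by
      simp only [hδ, hD]; field_simp; ring
    rw [this] at hb'
    have := mul_le_mul_of_nonneg_left hM (by linarith : (0 : ℝ) ≤ e / 4)
    linarith
  have hfin := scalar_fin h0 (hηb x).2 hS hw (by linarith : 0 ≤ P + Q) he0 hDp hc0 hk1 hkR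
    (wf_le u v π x (hup x) (hvp x) hpq h1 h2) (hkey)
  have hCeq : C = D * ((k : ℝ) ^ 2) ^ (2 : ℝ)
      + D * (Real.sqrt (e / (8 * D)))⁻¹ ^ c * ((k : ℝ) ^ 2) ^ (c + 2) := rfl
  rw [← hCeq] at hfin
  have hr : η x ^ k * w * Jfun π p q G X Y P Q + w * (η x ^ k * ∑ i, r i * Vfun π G X Y P Q i)
      = η x ^ k * w * (Jfun π p q G X Y P Q + ∑ i, r i * Vfun π G X Y P Q i) := by ring
  rw [hr]
  exact hfin

end Identity

end Vale.Agent.P100
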