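import Vale.Agent.P100.Main

/-!
The admissible region, an explicit sub-region and a sample point near the critical hyperbola.
-/

open Filter Topology

noncomputable section

namespace Vale.Agent.P100

/-- There is a certificate for `(N, p, q)`. -/
def Admissible (N p q : ℝ) : Prop :=
  ∃ π : Par, π.Cond N p q 0 ∧ 0 ≤ π.a + π.b * q ∧ 0 ≤ π.a * p + π.b ∧
    N - 4 < 2 * (π.a + π.b * q + (π.a * p + π.b)) / (p * q - 1)

lemma IsPositiveEntireSolution.swap {n : ℕ} {p q : ℝ} {u v : Euc n → ℝ}
    (h : IsPositiveEntireSolution p q u v) : IsPositiveEntireSolution q p v u :=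
  ⟨h.2.1, h.1, h.2.2.2.1, h.2.2.1, h.2.2.2.2.2.1, h.2.2.2.2.1,
    fun x hx => ⟨(h.2.2.2.2.2.2 x hx).2, (h.2.2.2.2.2.2 x hx).1⟩⟩

theorem no_solution_of_admissible {n : ℕ} (hn : 5 ≤ n) {p q : ℝ} (hpq : 1 < p * q)
    (h : Admissible n p q ∨ Admissible n q p) :
    ¬ ∃ u v : Euc n → ℝ, IsPositiveEntireSolution p q u v := by
  rintro ⟨u, v, hs⟩
  rcases h with ⟨π, h0, h1, h2, h3⟩ | ⟨π, h0, h1, h2, h3⟩
  · exact no_solution_of_cond hn hpq h0 h1 h2 h3 ⟨u, v, hs⟩
  · exact no_solution_of_cond hn (by rwa [mul_comm] at hpq) h0 h1 h2 h3 ⟨v, u, hs.swap⟩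

/-- The one-parameter family used for the explicit region. -/
def corner (N p e : ℝ) : Par where
  a := 1 - e
  b := (N - 4) / (N - 2) + e
  c := -(1 - e) / 2
  d := ((N - 4) / (N - 2) + e) / 2
  k1 := -((1 - e) * (1 - e) / (2 * ((N - 4) / (N - 2) + e + p - 1)) * e
    / ((N - 4) / (N - 2) + e + p))
  k2 := (1 - e) * (1 - e) / (2 * ((N - 4) / (N - 2) + e + p - 1))
  k3 := -((1 - e) * (1 - e) / (2 * ((N - 4) / (N - 2) + e + p - 1)))
  k4 := 1 / N - e

theorem admissible_of_explicit {N p q : ℝ} (hN : 4 < N) (hp : 0 < p) (hq : 0 < q)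
    (hP : 0 < (N - 2) * p - 2)
    (hreg : (N + ((N - 1) * q - 1) * ((N - 2) * p - 2)) ^ 2
      < N ^ 2 * q * (N + 2) * ((N - 2) * p - 2))
    (hdec : N - 4 < 2 * ((p + 1) + (N - 4) / (N - 2) * (q + 1)) / (p * q - 1)) :
    Admissible N p q := by
  have hN2 : (0 : ℝ) < N - 2 := by linarith
  have hN0 : (0 : ℝ) < N := by linarith
  set b0 := (N - 4) / (N - 2) with hb0
  have hb0p : 0 < b0 := div_pos (by linarith) hN2
  have hb02 : b0 < 2 := by rw [hb0, div_lt_iff₀ hN2]; linarith
  have hk : 0 < b0 + p - 1 := by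
    have : b0 + p - 1 = ((N - 2) * p - 2) / (N - 2) := by
      rw [hb0]; field_simp; ring
    rw [this]; exact div_pos hP hN2
  have hbp : 0 < b0 + p := by linarith
  -- the continuous conditions
  have cQ : ∀ᶠ e in 𝓝 (0 : ℝ), (corner N p e).cQc N q ^ 2 <
      4 * (corner N p e).cQa q 0 * (corner N p e).cQb N 0 := by
    refine ContinuousAt.eventually_lt ?_ ?_ ?_
    · simp only [Par.cQc, Par.m1, corner, ← hb0]
      fun_prop (disch := simp <;> linarith)
    · simp only [Par.cQa, Par.cQb, Par.m2, corner, ← hb0]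
      fun_prop (disch := simp <;> linarith)
    · have key : 4 * (corner N p 0).cQa q 0 * (corner N p 0).cQb N 0
          - (corner N p 0).cQc N q ^ 2
          = (N ^ 2 * q * (N + 2) * ((N - 2) * p - 2)
              - (N + ((N - 1) * q - 1) * ((N - 2) * p - 2)) ^ 2)
            / (N * ((N - 2) * p - 2)) ^ 2 := by
        have h1 : (N - 4) / (N - 2) + 0 + p - 1 = ((N - 2) * p - 2) / (N - 2) := by
          field_simp; ring
        simp only [Par.cQa, Par.cQb, Par.cQc, Par.m1, Par.m2, corner, h1]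
        field_simp
        ring
      have : 0 < (N ^ 2 * q * (N + 2) * ((N - 2) * p - 2)
          - (N + ((N - 1) * q - 1) * ((N - 2) * p - 2)) ^ 2)
            / (N * ((N - 2) * p - 2)) ^ 2 := div_pos (by linarith) (by positivity)
      linarith
  have cD : ∀ᶠ e in 𝓝 (0 : ℝ), N - 4 <
      2 * (1 - e + (b0 + e) * q + ((1 - e) * p + (b0 + e))) / (p * q - 1) := by
    refine ContinuousAt.eventually_lt continuousAt_const (by fun_prop) ?_
    have : 1 - (0 : ℝ) + (b0 + 0) * q + ((1 - 0) * p + (b0 + 0)) = p + 1 + b0 * (q + 1) := by ring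
    rw [this]; exact hdec
  have cs : ∀ᶠ e in 𝓝 (0 : ℝ), e < q ∧ e < 1 ∧ b0 + e < 2 ∧ 0 < b0 + e + p - 1 :=
    ((eventually_lt_nhds hq).and ((eventually_lt_nhds one_pos).and
      ((ContinuousAt.eventually_lt (by fun_prop) continuousAt_const (by simpa using hb02)).and
        (ContinuousAt.eventually_lt continuousAt_const (by fun_prop) (by simpa using hk)))))
  have hall := ((cQ.and cD).and cs).filter_mono (nhdsWithin_le_nhds (s := Set.Ioi 0))
  obtain ⟨e, ⟨⟨hQ, hDe⟩, heq, he1, heb, hek⟩, he0⟩ :=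
    (hall.and self_mem_nhdsWithin).exists
  replace he0 : 0 < e := he0
  have hep : 0 < b0 + e + p := by linarith
  set κ := (1 - e) * (1 - e) / (2 * (b0 + e + p - 1)) with hκ
  have hκp : 0 < κ := div_pos (mul_pos (by linarith) (by linarith)) (by linarith)
  have he1' : 0 < 1 - e := by linarith
  have hc : 0 < κ * e / (b0 + e + p) := div_pos (mul_pos hκp he0) hep
  have hPa : 0 < (corner N p e).cPa 0 := by
    simp only [Par.cPa, corner, ← hb0, ← hκ]
    have := mul_pos hc (show 0 < 1 + e by linarith)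
    linarith
  refine ⟨corner N p e, ⟨?_, ?_, ?_, ?_, ?_, hQ, ?_, ?_, ?_⟩, ?_, ?_, ?_⟩
  · have hA : (corner N p e).cA 0 + (corner N p e).cC N 0 = e * (1 - e) / 2 := by
      simp only [Par.cA, Par.cC, Par.m1, corner]; ring
    rw [hA]; exact div_pos (mul_pos he0 he1') two_pos
  · have hA : (corner N p e).cA 0 + (corner N p e).cC N 0 = e * (1 - e) / 2 := by
      simp only [Par.cA, Par.cC, Par.m1, corner]; ring
    have hB : (corner N p e).cB N 0 = 0 := by
      simp only [Par.cB, Par.m1, corner]; ring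
    have hE : (corner N p e).cE N 0 = e * (N - 2) * (2 - (b0 + e)) / (2 * N) := by
      simp only [Par.cE, Par.m2, corner, hb0]; field_simp; ring
    rw [hA, hB, hE]
    have := mul_pos (div_pos (mul_pos he0 he1') two_pos)
      (div_pos (mul_pos (mul_pos he0 hN2) (sub_pos.2 heb)) (mul_pos two_pos hN0))
    linarith
  · exact hPa
  · have hC : (corner N p e).cPc p = 0 := by
      simp only [Par.cPc, corner, ← hb0, ← hκ]; field_simp; ring
    have hb : (corner N p e).cPb p 0 = (1 - e) * e / 2 := by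
      simp only [Par.cPb, corner, ← hb0]
      field_simp
      ring
    rw [hC, hb]
    have := mul_pos hPa (div_pos (mul_pos he1' he0) two_pos)
    linarith
  · simp only [Par.cQa, corner, ← hb0, ← hκ]
    have := mul_pos hκp (sub_pos.2 heq)
    linarith
  · simp only [Par.cPP, corner, ← hb0, ← hκ]
    linarith
  · simp only [Par.cQQ, corner]; ring_nf; linarith
  · left; simp [Par.cPQ, corner]
  · simp only [corner, ← hb0]
    have := mul_pos (show 0 < b0 + e by linarith) hq
    linarith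
  · simp only [corner, ← hb0]
    have := mul_pos he1' hp
    linarith
  · simpa only [corner, ← hb0] using hDe

/-- A certificate at a point very close to the critical hyperbola in dimension five. -/
theorem admissible_sample : Admissible 5 (13 / 5) (209 / 100) := by
  refine ⟨⟨7914 / 10000, 5246 / 10000, -(6782 / 10000), 3454 / 10000, -(1051 / 10000),
    4663 / 10000, -(2482 / 10000), 866 / 10000⟩, ?_, ?_, ?_, ?_⟩
  · simp only [Par.Cond, Par.cA, Par.cB, Par.cC, Par.cE, Par.cPa, Par.cPb, Par.cPc, Par.cQa,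
      Par.cQb, Par.cQc, Par.cPP, Par.cPQ, Par.cQQ, Par.m1, Par.m2]
    norm_num
  all_goals norm_num

end Vale.Agent.P100
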